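import Vale.Agent.P352X.R.GRP.A
import Vale.Agent.P352Z.P352X.R.Br
import Vale.Agent.P352G2.Kit

open Vale.Agent.P352G

/-!
# P352X, row GRP: similitudes and their point maps
-/

set_option linter.all false

noncomputable section

open MeasureTheory Filter Topology Set

namespace Vale.Agent.P352X.Grp

open Vale.Agent.P352 Vale.Agent.P352.GF Vale.Agent.P352.BW
open Vale.Agent.P352.H246 Vale.Agent.P352.H496 Vale.Agent.P352.H755 Vale.Agent.P352.H15
open UniformSpace (Completion)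
open Br

/-! ### null coordinates -/

/-! ### similitudes -/

variable {D : Type*} [NormedAddCommGroup D] [InnerProductSpace ℂ D] [GrD D] {Q : Theory D}
  {A : (V → V) → D → D}

lemma ug_mulZ (R : RepZ Q A) {s s' : ℝ} {L L' : Ix → V} (a a' : V) (hs : 0 < s) (hs' : 0 < s')
    (hL : IsLor L) (hL' : IsLor L') (h : OkL L L') : Ug Q s L a * Ug Q s' L' a' =
      Ug Q (s * s') (fun m => sim 1 L 0 (L' m)) (sim s L a a') :=
  R.ug_mul a a' hs hs' hL hL' h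

variable {U U' : Completion D →L[ℂ] Completion D} {g g' : V → V}

/-- `U` implements the point map `g`, with Lorentz part in `AN b` -/
def ImA (b : V) (Q : Theory D) (U : Completion D →L[ℂ] Completion D) (g : V → V) : Prop :=
  ∃ s L a, 0 < s ∧ IsLor L ∧ AN b L ∧ U = Ug Q s L a ∧ ∀ z, sim s L a z = g z

lemma ImA.mulZ {b : V} (R : RepZ Q A) (hb : IsNull b) (h : ImA b Q U g) (h' : ImA b Q U' g') :
    Im Q (U * U') fun z => g (g' z) := by
  obtain ⟨s, L, a, hs, hL, hA, rfl, e⟩ := h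
  obtain ⟨s', L', a', hs', hL', hA', rfl, e'⟩ := h'
  exact ⟨_, _, _, mul_pos hs hs', ue_lor hL hL', ug_mulZ R a a' hs hs' hL hL' (OkL.an hb hA hA'),
    fun z => by rw [sim_mul, e', e]⟩

lemma ia_ut (b : V) (Q : Theory D) (y : V) : ImA b Q (Ut Q y) fun z => z + y :=
  ⟨1, GF.one, y, one_pos, H496.isLor_one, AN.one b, rfl, HM.sim_tr y⟩

lemma ia_sc (Q : Theory D) {r s : ℝ} (hr : 0 < r) (hs : 0 < s) :
    ImA va Q (Usc Q r s) (scp r s) :=
  ⟨_, _, 0, Real.sqrt_pos.2 (mul_pos hr hs), (lsc hr hs).1, AN.bst_a _ _ _ _, rfl, (lsc hr hs).2⟩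

lemma ib_sc (Q : Theory D) {r s : ℝ} (hr : 0 < r) (hs : 0 < s) :
    ImA vb Q (Usc Q r s) (scp r s) :=
  ⟨_, _, 0, Real.sqrt_pos.2 (mul_pos hr hs), (lsc hr hs).1, AN.bst_b _ _ _ _, rfl, (lsc hr hs).2⟩

lemma ia_ga (Q : Theory D) (w : R2) : ImA va Q (Ga Q w) (gap w) :=
  ⟨1, _, 0, one_pos, (lga w).1, AN.nrt _ _, rfl, (lga w).2⟩

lemma ia_gb (Q : Theory D) (s : ℝ) : ImA vb Q (Gb Q s) (gbp s) :=
  ⟨1, _, 0, one_pos, (lgb s).1, AN.nrt _ _, rfl, (lgb s).2⟩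

/-! ### the relations -/

lemma utZ (R : RepZ Q A) (x y : V) : Ut Q (x + y) = Ut Q x * Ut Q y :=
  (im_ut Q _).ext ((ia_ut va Q x).mulZ R na (ia_ut va Q y)) fun z => by abel

lemma scZ (R : RepZ Q A) {r s r' s' : ℝ} (hr : 0 < r) (hs : 0 < s) (hr' : 0 < r') (hs' : 0 < s') :
    Usc Q (r * r') (s * s') = Usc Q r s * Usc Q r' s' :=
  (im_sc Q (mul_pos hr hr') (mul_pos hs hs')).ext ((ia_sc Q hr hs).mulZ R na (ia_sc Q hr' hs'))
    fun z => by
      have e : Real.sqrt (r * r' * (s * s')) = Real.sqrt (r * s) * Real.sqrt (r' * s') := by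
        rw [← sq_mul (mul_pos hr hs)]
        congr 1
        ring
      simp only [scp, al_pt', be_pt', tx_pt', e, smul_smul]
      simp only [mul_assoc]

lemma gaZ (R : RepZ Q A) (v w : R2) : Ga Q (v + w) = Ga Q v * Ga Q w :=
  (im_ga Q _).ext ((ia_ga Q v).mulZ R na (ia_ga Q w)) fun z => by
    apply vext <;> simp only [gap, al_pt', be_pt', tx_pt', d2, Pi.smul_apply, Pi.add_apply,
      smul_eq_mul] <;> ring

lemma gbZ (R : RepZ Q A) (s t : ℝ) : Gb Q (s + t) = Gb Q s * Gb Q t :=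
  (im_gb Q _).ext ((ia_gb Q s).mulZ R nb (ia_gb Q t)) fun z => by
    apply vext <;> simp only [gbp, al_pt', be_pt', tx_pt', Pi.smul_apply, Pi.add_apply,
      smul_eq_mul, e00, e01] <;> ring

lemma sc_utZ (R : RepZ Q A) {r s : ℝ} (y : V) (hr : 0 < r) (hs : 0 < s) :
    Usc Q r s * Ut Q y = Ut Q (scp r s y) * Usc Q r s :=
  ((ia_sc Q hr hs).mulZ R na (ia_ut va Q y)).ext
    ((ia_ut va Q _).mulZ R na (ia_sc Q hr hs)) fun z => by
    apply vext <;> simp only [scp, al_add, be_add, tx_add, al_pt', be_pt', tx_pt', Pi.smul_apply,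
      Pi.add_apply, smul_eq_mul] <;> ring

lemma ga_utZ (R : RepZ Q A) (w : R2) (y : V) : Ga Q w * Ut Q y = Ut Q (gap w y) * Ga Q w :=
  ((ia_ga Q w).mulZ R na (ia_ut va Q y)).ext
    ((ia_ut va Q _).mulZ R na (ia_ga Q w)) fun z => by
    apply vext <;> simp only [gap, al_add, be_add, tx_add, al_pt', be_pt', tx_pt', Pi.smul_apply,
      Pi.add_apply, smul_eq_mul, d2] <;> ring

lemma gb_utZ (R : RepZ Q A) (s : ℝ) (y : V) : Gb Q s * Ut Q y = Ut Q (gbp s y) * Gb Q s :=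
  ((ia_gb Q s).mulZ R nb (ia_ut vb Q y)).ext
    ((ia_ut vb Q _).mulZ R nb (ia_gb Q s)) fun z => by
    apply vext <;> simp only [gbp, al_add, be_add, tx_add, al_pt', be_pt', tx_pt', Pi.smul_apply,
      Pi.add_apply, smul_eq_mul, e00, e01] <;> ring

lemma sc_gaZ (R : RepZ Q A) {r s : ℝ} (w : R2) (hr : 0 < r) (hs : 0 < s) :
    Usc Q r s * Ga Q w = Ga Q (Real.sqrt (r / s) • w) * Usc Q r s :=
  ((ia_sc Q hr hs).mulZ R na (ia_ga Q w)).ext
    ((ia_ga Q _).mulZ R na (ia_sc Q hr hs)) fun z => by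
    obtain ⟨ρ, h1, rfl⟩ : ∃ ρ, 0 < ρ ∧ r = ρ * ρ :=
      ⟨_, Real.sqrt_pos.2 hr, (Real.mul_self_sqrt hr.le).symm⟩
    obtain ⟨σ, h2, rfl⟩ : ∃ σ, 0 < σ ∧ s = σ * σ :=
      ⟨_, Real.sqrt_pos.2 hs, (Real.mul_self_sqrt hs.le).symm⟩
    apply vext <;> simp only [scp, gap, al_pt', be_pt', tx_pt', Pi.smul_apply, Pi.add_apply,
      smul_eq_mul, d2, sq_mul hr, sq_div hr, Real.sqrt_mul_self h1.le,
      Real.sqrt_mul_self h2.le] <;> field_simp

lemma sc_gbZ (R : RepZ Q A) {r s : ℝ} (t : ℝ) (hr : 0 < r) (hs : 0 < s) :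
    Usc Q r s * Gb Q t = Gb Q (Real.sqrt (s / r) * t) * Usc Q r s :=
  ((ib_sc Q hr hs).mulZ R nb (ia_gb Q t)).ext
    ((ia_gb Q _).mulZ R nb (ib_sc Q hr hs)) fun z => by
    obtain ⟨ρ, h1, rfl⟩ : ∃ ρ, 0 < ρ ∧ r = ρ * ρ :=
      ⟨_, Real.sqrt_pos.2 hr, (Real.mul_self_sqrt hr.le).symm⟩
    obtain ⟨σ, h2, rfl⟩ : ∃ σ, 0 < σ ∧ s = σ * σ :=
      ⟨_, Real.sqrt_pos.2 hs, (Real.mul_self_sqrt hs.le).symm⟩
    apply vext <;> simp only [scp, gbp, al_pt', be_pt', tx_pt', Pi.smul_apply, Pi.add_apply,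
      smul_eq_mul, e00, e01, sq_mul hr, sq_div hs, Real.sqrt_mul_self h1.le,
      Real.sqrt_mul_self h2.le] <;> field_simp

/-! ### unitarity -/

lemma uniZ (R : RepZ Q A) (s : ℝ) (L : Ix → V) (a : V) :
    Ug Q s L a ∈ unitary (Completion D →L[ℂ] Completion D) := R.uni s L a

lemma vacZ (R : RepZ Q A) (s : ℝ) (L : Ix → V) (a : V) : Ug Q s L a (om Q) = om Q :=
  RepZ.ug_vac s L a

/-! ### the net -/

variable {N : Set V → VonNeumannAlgebra (Completion D)}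

lemma algZ (h : LNmZ Q A N) {s : ℝ} {L : Ix → V} (hs : 0 < s) (hL : IsLor L) (a : V) (O : Set V)
    (X : Completion D →L[ℂ] Completion D) :
    X ∈ N O ↔ Ug Q s L a * X * star (Ug Q s L a) ∈ N (sim s L a '' O) := h.alg hs hL a O X

lemma alg1Z (h : LNmZ Q A N) {s : ℝ} {L : Ix → V} (hs : 0 < s) (hL : IsLor L) (a : V) {O : Set V}
    {X : Completion D →L[ℂ] Completion D} (hX : X ∈ N O) :
    Ug Q s L a * X * star (Ug Q s L a) ∈ N (sim s L a '' O) := (algZ h hs hL a O X).1 hX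

/-! ### the null deformations -/

variable {S : V → ℝ → Completion D →L[ℂ] Completion D}

lemma S_utZ (R : RepZ Q A) (h : Grp1 Q N S) (t : ℝ) (y : R2) : S va t * Ut Q (tv y) =
    Ut Q (tv y + (t * d2 y y) • va) * Ga Q ((2 * t) • y) * S va t := by
  ext z
  have e : (1 / 2 : ℝ) • (2 * t) • y = t • y := by
    rw [smul_smul]
    congr 1
    ring
  have h1 := h.tra va (tv y) t _ z na (va_tv y) (lga ((2 * t) • y)).1 (fun x => by
    rw [H746.sim_nrt, e, tv_smul', md_smul, md_smul_l, md_smul_l]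
    module)
  have h2 : Ut Q (tv y + (t * d2 y y) • va) * Ga Q ((2 * t) • y) =
      Ug Q 1 (H746.nrt va (tv ((1 / 2 : ℝ) • (2 * t) • y)))
        (tv y - (t * GF.mdot (tv y) (tv y)) • va) :=
    ((ia_ut va Q _).mulZ R na (ia_ga Q _)).ext (im_ug Q one_pos (lga _).1 _) fun x => by
      rw [HM.sim_at, (lga _).2, md_tv, tx_tv]
      module
  rw [h2, mul_apply_eq_comp, mul_apply_eq_comp, Ut_apply, h1, Ug_apply Q one_pos (lga _).1]

end Vale.Agent.P352X.Grp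

end
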