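import Vale.Agent.P352X.R.GRP.C
import Vale.Agent.P352Z.P352X.R.GRP.A

open Vale.Agent.P352G

/-!
# P352X, row GRP: the action on the fields
-/

set_option linter.all false

noncomputable section

open MeasureTheory Filter Topology Set
open scoped SchwartzMap ComplexConjugate LineDeriv

namespace Vale.Agent.P352X.Grp

open Vale.Agent.P352 Vale.Agent.P352.GF Vale.Agent.P352.BW
open Vale.Agent.P352.H246 Vale.Agent.P352.H496 Vale.Agent.P352.H755 Vale.Agent.P352.H15
open UniformSpace (Completion)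
open Br

/-! ### test functions -/

variable {D : Type*} [NormedAddCommGroup D] [InnerProductSpace ℂ D] [GrD D] {Q : Theory D}
  {A : (V → V) → D → D} {T : Ix → Ix → Fld D} {B : Fld D}

/-! ### the potential -/

variable {l : Fn → Completion D}

lemma potZ (R : RepZ Q A) (hl : IsPot Q T l) {s : ℝ} {L : Ix → V} (a : V) {f : Fn} (hs : 0 < s)
    (hL : IsLor L) (hf : GF.IsTest f) :
    Ug Q s L a (l fun x => f (sim s L a x)) = ((s ^ 2)⁻¹ : ℝ) • l f := by
  have h1 : ∀ w, inner ℂ (Ug Q s L a w) (l f) =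
      (s ^ 2 : ℝ) * inner ℂ w (l fun x => f (sim s L a x)) := fun w =>
    Completion.induction_on w (isClosed_eq (by fun_prop) (by fun_prop)) fun v => by
      rw [coe hs hL, hl.cov s L a f v hs hL hf]
  refine ext_inner_left ℂ fun z => ?_
  have h2 : z = Ug Q s L a (star (Ug Q s L a) z) := by
    rw [← mul_apply_eq_comp, (uniZ R s L a).2]
    rfl
  have h3 : ((s ^ 2 : ℝ) : ℂ) ≠ 0 := Complex.ofReal_ne_zero.2 (by positivity)
  rw [h2, ug_inner hs hL, ← Complex.coe_smul, inner_smul_right, h1, Complex.ofReal_inv,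
    inv_mul_cancel_left₀ h3]

/-! ### one point functions -/

/-! ### affiliation -/

variable {M : VonNeumannAlgebra (Completion D)} {X X' Y Y' : D → D}

variable {N : Set V → VonNeumannAlgebra (Completion D)}

lemma afs_TZ (hN : LNmZ Q A N) (hT : Q.IsStress T) (m n : Ix) {O : Set V} {f : Fn} (hf : In O f) :
    BW.T.Afs (N O) (T m n f) (T m n (bar f)) :=
  afs_of_aff (fun v w => hT.herm m n f v w hf.1) (hN.fld O _ f (T_fld hT m n) hf)

lemma afftZ (hN : LNmZ Q A N) (hT : Q.IsStress T) {O : Set V} {F : Ix → Ix → Fn}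
    (hF : ∀ m n, In O (F m n)) : BW.T.Afs (N O) (fun v => ∑ m, ∑ n, T m n (F m n) v)
      fun v => ∑ m, ∑ n, T m n (bar (F m n)) v :=
  afs_sum _ fun m => afs_sum _ fun n => afs_TZ hN hT m n (hF m n)

lemma affhZ (hN : LNmZ Q A N) (hT : Q.IsStress T) {O : Set V} {f : Fn} (hf : In O f) :
    BW.T.Afs (N O) (GF.tr T f) (GF.tr T (bar f)) := by
  have h := afs_sum Finset.univ fun m => afs_smul (eta m : ℂ) (afs_TZ hN hT m m hf)
  simp only [Complex.star_def, Complex.conj_ofReal] at h
  exact h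

lemma affaZ (hN : LNmZ Q A N) {O : Set V} (h : Al Q O X X') : BW.T.Afs (N O) X X' := by
  induction h with
  | one => exact afs_one
  | add X X' Y Y' _ _ h1 h2 => exact afs_add h1 h2
  | smul c X X' _ h1 => exact afs_smul c h1
  | fld B B' g X X' hB _ hadj hg _ h1 =>
    exact afs_comp (afs_of_aff (fun v w => hadj g v w hg.1) (hN.fld O B g hB hg)) h1

end Vale.Agent.P352X.Grp

end
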