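import Vale.Agent.P352X.R.GRP.B
import Vale.Agent.P352Z.P352.BW.H649.Lw
import Vale.Agent.P352Z.P352X.R.GRP.A

open Vale.Agent.P352G

/-!
# P352X, row GRP: strong continuity, modular data
-/

set_option linter.all false

noncomputable section

open MeasureTheory Filter Topology Set

namespace Vale.Agent.P352X.Grp

open Vale.Agent.P352 Vale.Agent.P352.GF Vale.Agent.P352.BW
open Vale.Agent.P352.H246 Vale.Agent.P352.H496 Vale.Agent.P352.H755 Vale.Agent.P352.H15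
open Vale.Agent.P132 (ModData)
open UniformSpace (Completion)
open Br

variable {D : Type*} [NormedAddCommGroup D] [InnerProductSpace ℂ D] [GrD D] {Q : Theory D}
  {A : (V → V) → D → D}

lemma cont_oneZ (R : RepZ Q A) {ι : Type*} {l : Filter ι} {p : ι → Pm}
    (hp : ∀ i, 0 < (p i).1 ∧ IsLor (p i).2.1) (hl : Tendsto p l (𝓝 (1, GF.one, 0)))
    (v : Completion D) : Tendsto (fun i => Ug Q (p i).1 (p i).2.1 (p i).2.2 v) l (𝓝 v) := by
  classical
  by_contra hn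
  rw [Metric.tendsto_nhds] at hn
  push Not at hn
  obtain ⟨ε, hε, hfr⟩ := hn
  have h1 : ∀ e : ℝ, e ≠ 0 → ∃ i, ε ≤ dist (Ug Q (p i).1 (p i).2.1 (p i).2.2 v) v ∧
      dist (p i) (1, GF.one, 0) < e ^ 2 := fun e he =>
    (hfr.and_eventually (Metric.tendsto_nhds.1 hl _ (by positivity))).exists
  choose i hi1 hi2 using h1
  let q : ℝ → Pm := fun e => if h : e ≠ 0 then p (i e h) else (1, GF.one, 0)
  have q0 : q 0 = (1, GF.one, 0) := by simp [q]
  have q1 : ∀ e, 0 < (q e).1 ∧ IsLor (q e).2.1 := fun e => by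
    by_cases h : e ≠ 0
    · simpa only [q, dif_pos h] using hp _
    · simpa only [q, dif_neg h] using ⟨one_pos, H496.isLor_one⟩
  have q2 : ∀ e, ‖q e - q 0‖ ≤ e ^ 2 := fun e => by
    by_cases h : e ≠ 0
    · rw [q0, ← dist_eq_norm]
      simpa only [q, dif_pos h] using (hi2 e h).le
    · rw [not_not.1 h]
      simp
  have q3 : HasDerivAt q 0 0 := by
    rw [hasDerivAt_iff_isLittleO]
    simp only [smul_zero, sub_zero]
    refine Asymptotics.IsBigO.trans_isLittleO (g := fun e : ℝ => e ^ 2)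
      (Asymptotics.IsBigO.of_bound 1 (Eventually.of_forall fun e => ?_)) ?_
    · simpa using q2 e
    · exact Asymptotics.isLittleO_pow_id (by norm_num)
  have h2 := H26L.tends_UeZ (ublockZ R) R (fun e => (q e).1) (fun e => (q e).2.1)
    (fun e => (q e).2.2) (fun _ => 0) (by rw [q0]) (by rw [q0]) (by rw [q0]) q1 (fun n y => by
      have := (diff_sim y n (q 0)).hasFDerivAt.comp_hasDerivAt (0 : ℝ) q3
      rw [map_zero] at this
      exact this) v
  have h3 := (Metric.tendsto_nhds.1 h2 ε hε).filter_mono (nhdsWithin_le_nhds (s := {0}ᶜ))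
  obtain ⟨e, h4, h5⟩ := (h3.and self_mem_nhdsWithin).exists
  have h6 : e ≠ 0 := h5
  have h7 := hi1 e h6
  rw [Ug_apply Q (hp _).1 (hp _).2] at h7
  simp only [q, dif_pos h6] at h4
  exact absurd h4 (not_lt.2 h7)

lemma contZ (R : RepZ Q A) {ι : Type*} {l : Filter ι} {s : ι → ℝ} {L : ι → Ix → V} {a : ι → V}
    {s0 : ℝ} {L0 : Ix → V} {a0 : V} (v : Completion D)
    (hv : Gm D v = v ∨ L0 = GF.one ∨ ∃ b, IsNull b ∧ AN b L0 ∧ ∀ i, AN b (L i))
    (h : ∀ i, 0 < s i ∧ IsLor (L i))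
    (hs0 : 0 < s0) (hL0 : IsLor L0) (hs : Tendsto s l (𝓝 s0)) (hL : Tendsto L l (𝓝 L0))
    (ha : Tendsto a l (𝓝 a0)) :
    Tendsto (fun i => Ug Q (s i) (L i) (a i) v) l (𝓝 (Ug Q s0 L0 a0 v)) := by
  have hs1 := inv_pos.2 hs0
  have hL1 := isLor_linv hL0
  set b := -(sim s0⁻¹ (linv L0) 0 a0) with hb
  let F : Pm → Pm := fun p =>
    (s0⁻¹ * p.1, fun m => sim 1 (linv L0) 0 (p.2.1 m), sim s0⁻¹ (linv L0) b p.2.2)
  have hF : Continuous F := by
    simp only [F]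
    unfold sim
    fun_prop
  have F0 : F (s0, L0, a0) = (1, GF.one, 0) := by
    simp only [F, inv_mul_cancel₀ hs0.ne']
    refine Prod.ext rfl (Prod.ext ?_ ?_)
    · funext m
      show sim 1 (linv L0) 0 (L0 m) = _
      rw [H26.sim_row L0 m, sim_linv2 hL0]
      rfl
    · show sim s0⁻¹ (linv L0) b a0 = 0
      rw [HM.sim_at, hb, add_neg_cancel]
  have h1 := cont_oneZ R (l := l) (p := fun i => F (s i, L i, a i))
    (fun i => ⟨mul_pos hs1 (h i).1, ue_lor hL1 (h i).2⟩)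
    (F0 ▸ (hF.tendsto _).comp (hs.prodMk_nhds (hL.prodMk_nhds ha))) v
  refine (((Ug Q s0 L0 a0).continuous.tendsto v).comp h1).congr fun i => ?_
  show Ug Q s0 L0 a0 (Ug Q (s0⁻¹ * s i) (fun m => sim 1 (linv L0) 0 (L i m))
    (sim s0⁻¹ (linv L0) b (a i)) v) = _
  have k1 := mul_pos hs1 (h i).1
  have k2 := ue_lor hL1 (h i).2
  have e : Ug Q (s0 * (s0⁻¹ * s i)) (fun m => sim 1 L0 0 (sim 1 (linv L0) 0 (L i m)))
      (sim s0 L0 a0 (sim s0⁻¹ (linv L0) b (a i))) v = Ug Q (s i) (L i) (a i) v := by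
    rw [hb, ue_sim hs0 hL0, mul_inv_cancel_left₀ hs0.ne']
    simp only [sim_linv hL0]
  rw [← e]
  rcases hv with hv | hv | ⟨c, hc, h2, h3⟩
  · exact R.ug_mul_ev _ _ hs0 k1 hL0 k2 hv
  · rw [← mul_apply_eq_comp, R.ug_mul _ _ hs0 k1 hL0 k2 (.inl hv)]
  · rw [← mul_apply_eq_comp, R.ug_mul _ _ hs0 k1 hL0 k2
      (OkL.an hc h2 ((h2.inv hc hL0).mul hc (h3 i)))]

variable {N : Set V → VonNeumannAlgebra (Completion D)}
  {S : V → ℝ → Completion D →L[ℂ] Completion D}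

lemma mdZ (hN : LNmZ Q A N) (h : Grp0 Q N S) {r : ℝ} (hr : 0 ≤ r) :
    ∃ E : ModData (N (Rc r 0)) (om Q), ∀ t, E.U t =
      S va (r * (1 - Real.exp (-(2 * Real.pi * t)))) * Bo Q (-(2 * Real.pi * t)) := by
  rw [Rc_zero]
  obtain ⟨E⟩ := hN.modR na nb nab hr
  obtain ⟨J, hJ⟩ := h.mod va vb r (fun t => bst va vb (Real.exp (-(2 * Real.pi * t)) - 1)
    (Real.exp (- -(2 * Real.pi * t)) - 1)) na nb nab hr (fun t => lor_bo _)
    fun t x => by rw [sim_bst, neg_neg]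
  refine ⟨E, fun t => ?_⟩
  ext z
  rw [← isMod_unique E hJ t z, mul_apply_eq_comp, bo_eq, Ug_apply Q one_pos (lor_bo _)]

/-- the grading commutes with the null deformations -/
lemma gSZ (hN : LNmZ Q A N) (h : Grp0 Q N S) {a : V} (ha : IsNull a) (t : ℝ) :
    Gm D * S a t = S a t * Gm D := by
  have g := hN.g0
  obtain ⟨b, hb, hab⟩ := Kin.exists_dual ha
  have hc : 0 < |t| + 1 := by positivity
  have lb : ∀ u, IsLor (T.bq a b u) := fun u => isLor_bst ha hb hab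
    (by rw [add_sub_cancel]; exact Real.exp_pos _)
    (by rw [add_sub_cancel, add_sub_cancel, ← Real.exp_add, neg_add_cancel, Real.exp_zero])
  obtain ⟨E⟩ := hN.modR ha hb hab hc.le
  obtain ⟨J, hJ⟩ := h.mod a b (|t| + 1) (fun u => T.bq a b u) ha hb hab hc.le
    lb fun u x => sim_bst _ _ _ _ _
  have h1 : 0 < 1 - t / (|t| + 1) := by
    rw [sub_pos, div_lt_one hc]
    linarith [le_abs_self t]
  set u := -(Real.log (1 - t / (|t| + 1)) / (2 * Real.pi)) with hu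
  have h2 : (|t| + 1) * (1 - Real.exp (-(2 * Real.pi * u))) = t := by
    rw [hu, mul_neg, neg_neg, mul_div_cancel₀ _ (by positivity), Real.exp_log h1]
    field_simp
    ring
  have h3 : ∀ X ∈ N (HM.Rg a b (|t| + 1)), ∃ Y ∈ N (HM.Rg a b (|t| + 1)),
      ∀ z, Y (Gm D z) = Gm D (X z) := fun X hX => ⟨_, hN.gam _ X hX, fun z => by
    rw [mul_apply_eq_comp, mul_apply_eq_comp, g.gz]⟩
  have h4 : ∀ Y ∈ N (HM.Rg a b (|t| + 1)), ∃ X ∈ N (HM.Rg a b (|t| + 1)),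
      ∀ z, Y (Gm D z) = Gm D (X z) := fun Y hY => ⟨_, hN.gam _ Y hY, fun z => by
    rw [mul_apply_eq_comp, mul_apply_eq_comp, g.gz]⟩
  have h5 := eblock _ _ _ E E (Unitary.linearIsometryEquiv ⟨_, g.uni⟩) hN.toRepZ.gv h3 h4 u
  ext z
  obtain ⟨w, rfl⟩ := hN.toRepZ.ue_surj one_pos (lb u) 0 z
  have h6 : Gm D (E.U u w) = E.U u (Gm D w) := h5 w
  rw [← isMod_unique E hJ u w, ← isMod_unique E hJ u (Gm D w), h2] at h6
  rw [mul_apply_eq_comp, mul_apply_eq_comp, hN.toRepZ.gUe one_pos (lb u)]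
  exact h6

end Vale.Agent.P352X.Grp

end
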